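import Crest.Agent.Helper79.OT.DiscreteTheoryFinal
import Crest.Agent.Helper66.OT.Interface

/-!
# Row 82 (S0109): bridge from `discrete_theory` (helper75's Spec shape) to helper66's
`DiscreteTheory` predicate, in exactly the form of the hypothesis `hDT` of the limit passage.
-/

set_option autoImplicit false

open MeasureTheory
open scoped ENNReal NNReal

namespace Crest.Agent.Helper75.OT

open Crest.AnalysisR.OT

theorem discMeasure_eq_discMeas {d : ℕ} {ι : Type} [Fintype ι] (w : ι → ℝ) (y : ι → E d) :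
    Crest.Agent.Helper66.OT.discMeasure w y = discMeas y w := rfl

/-- `hDT` of helper66's `s0109_of_discrete`. -/
theorem discreteTheory_bridge {d : ℕ} (K : Set (EuclideanSpace ℝ (Fin d))) (hKc : IsCompact K)
    (hKv : Convex ℝ K) (hKi : (interior K).Nonempty) :
    ∀ M : ℝ, 0 ≤ M → ∃ C₁ : ℝ, 0 ≤ C₁ ∧ ∃ pot lag,
      Crest.Agent.Helper66.OT.DiscreteTheory K M C₁ pot lag := by
  intro M hM
  obtain ⟨C1, pot, lag, hC, ha, hb⟩ := discrete_theory (K := K) ⟨hKc, hKv, hKi⟩ M hM
  refine ⟨C1, hC, pot, lag, ?_, ?_⟩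
  · intro ι _ w y hw hsum hy
    simpa only [discMeasure_eq_discMeas] using ha ι w y hw hsum hy
  · intro ι _ w y z hw hsum hy hz
    simpa only [discMeasure_eq_discMeas] using hb ι w y z hw hsum hy hz

end Crest.Agent.Helper75.OT
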