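import Crest.Agent.Helper75.OT.Defs
import Crest.Agent.Helper82.OT.LagWeights
import Crest.Agent.Helper4.OT.LagMap
import Crest.Agent.Helper46.OT.Cells
import Crest.Agent.Helper59.OT.Rho

/-!
# Row 82 (S0109), package DT: the discrete theory in the shape consumed by the limit passage.

`pot μ'` / `lag μ'` are canonical functions of the finitely supported measure `μ'`: the atoms are
read off from the point masses of `μ'`, Laguerre weights and a Laguerre map are chosen for them,
and the potential is normalised to have mean zero.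

FINAL (no `sorry`, no `Spec` import).  Uses L1 `exists_lagWeights` (Helper82/OT/LagWeights),
LM `exists_lagMap`, `discMeas_singleton`, `lagMap_push` (Helper4/OT/LagMap), cells
`mergedMass_pos`, `sum_mergedMass`, `le_lagPot`, `lipschitz_lagPot` (Helper46/OT/Cells) and
`rho_prob` (Helper59/OT/Rho).  The stability of the potentials (SW:
`discrete_potential_stability`) enters `discrete_theory_of` as an explicit hypothesis, so that
this file does not wait for it; `DiscreteTheoryFinal.lean` plugs it in.
-/

set_option autoImplicit false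

noncomputable section

open MeasureTheory Filter Topology
open scoped ENNReal NNReal RealInnerProductSpace

namespace Crest.Agent.Helper79.OT

open Crest.AnalysisR.OT Crest.Agent.Helper75.OT

variable {d : ℕ}

/-! ### Reading a labelled configuration off its measure -/

open Classical in
/-- The atoms of a measure (as a finset; `∅` if there are infinitely many). -/
def suppM (μ : Measure (E d)) : Finset (E d) :=
  if h : {c : E d | μ {c} ≠ 0}.Finite then h.toFinset else ∅

/-- The point masses of a measure. -/
def massM (μ : Measure (E d)) (c : E d) : ℝ := (μ {c}).toReal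

theorem mergedMass_nonneg' {ι : Type} [Fintype ι] (y : ι → E d) (m : ι → ℝ) (hm : ∀ i, 0 ≤ m i)
    (c : E d) : 0 ≤ mergedMass y m c := by
  classical
  unfold mergedMass
  refine Finset.sum_nonneg fun i _ => ?_
  split_ifs
  · exact hm i
  · exact le_rfl

theorem mergedMass_eq_zero_of_not_mem {ι : Type} [Fintype ι] (y : ι → E d) (m : ι → ℝ)
    {c : E d} (hc : c ∉ supp y) : mergedMass y m c = 0 := by
  classical
  unfold mergedMass
  refine Finset.sum_eq_zero fun i _ => ?_
  have : y i ≠ c := by
    intro h
    apply hc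
    unfold supp
    exact Finset.mem_image.mpr ⟨i, Finset.mem_univ i, h⟩
  simp [this]

theorem discMeas_singleton_ne_zero_iff {ι : Type} [Fintype ι] (y : ι → E d) (m : ι → ℝ)
    (hm : ∀ i, 0 < m i) (c : E d) : discMeas y m {c} ≠ 0 ↔ c ∈ supp y := by
  rw [discMeas_singleton y m (fun i => (hm i).le) c]
  constructor
  · intro h
    by_contra hc
    exact h (by rw [mergedMass_eq_zero_of_not_mem y m hc]; simp)
  · intro hc
    have := mergedMass_pos y m hm hc
    simp [ENNReal.ofReal_eq_zero, not_le, this]

theorem suppM_discMeas {ι : Type} [Fintype ι] (y : ι → E d) (m : ι → ℝ) (hm : ∀ i, 0 < m i) :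
    suppM (discMeas y m) = supp y := by
  classical
  have hset : {c : E d | discMeas y m {c} ≠ 0} = ↑(supp y) := by
    ext c
    simp only [Set.mem_ofPred_eq, Finset.mem_coe]
    exact discMeas_singleton_ne_zero_iff y m hm c
  have hfin : {c : E d | discMeas y m {c} ≠ 0}.Finite := by
    rw [hset]; exact Finset.finite_toSet _
  unfold suppM
  rw [dif_pos hfin]
  ext c
  rw [Set.Finite.mem_toFinset]
  exact discMeas_singleton_ne_zero_iff y m hm c

theorem massM_discMeas {ι : Type} [Fintype ι] (y : ι → E d) (m : ι → ℝ) (hm : ∀ i, 0 < m i) :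
    massM (discMeas y m) = mergedMass y m := by
  funext c
  unfold massM
  rw [discMeas_singleton y m (fun i => (hm i).le) c,
    ENNReal.toReal_ofReal (mergedMass_nonneg' y m (fun i => (hm i).le) c)]

/-! ### Canonical weights, Laguerre map and potential of a measure -/

open Classical in
/-- Canonical Laguerre weights of a finitely supported measure. -/
def wtsM (K : Set (E d)) (μ : Measure (E d)) : E d → ℝ :=
  if h : ∃ w : E d → ℝ, IsLagWeights K (suppM μ) (massM μ) w then Classical.choose h
  else fun _ => 0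

/-- `L` is a Laguerre map for the atoms `S` and the weights `w`. -/
def IsLagMap (K : Set (E d)) (S : Finset (E d)) (w : E d → ℝ) (L : E d → E d) : Prop :=
  Measurable L ∧ (∀ x, L x ∈ S) ∧
    (∀ x, ∀ c' ∈ S, ⟪x, c'⟫ - w c' ≤ ⟪x, L x⟫ - w (L x)) ∧
    ∀ c ∈ S, (uniformProbOn K) (L ⁻¹' {c}) = (uniformProbOn K) (Lag K S w c)

open Classical in
/-- Canonical Laguerre map of a finitely supported measure. -/
def lagM (K : Set (E d)) (μ : Measure (E d)) : E d → E d :=
  if h : ∃ L : E d → E d, IsLagMap K (suppM μ) (wtsM K μ) L then Classical.choose h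
  else fun _ => 0

/-- The un-normalised canonical potential. -/
def potRaw (K : Set (E d)) (μ : Measure (E d)) : E d → ℝ := lagPot (suppM μ) (wtsM K μ)

/-- The canonical potential, normalised to have mean zero. -/
def potM (K : Set (E d)) (μ : Measure (E d)) (x : E d) : ℝ :=
  potRaw K μ x - ∫ x', potRaw K μ x' ∂(uniformProbOn K)

section Labelled

variable {K : Set (E d)} {ι : Type} [Fintype ι] (y : ι → E d) (m : ι → ℝ)

theorem supp_nonempty_of_sum (hsum : ∑ i, m i = 1) : (supp y).Nonempty := by
  classical
  have hne : Nonempty ι := by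
    by_contra h
    rw [not_nonempty_iff] at h
    simp at hsum
  obtain ⟨i⟩ := hne
  exact ⟨y i, by unfold supp; exact Finset.mem_image_of_mem y (Finset.mem_univ i)⟩

theorem wtsM_spec (hK : Body K) (hm : ∀ i, 0 < m i) (hsum : ∑ i, m i = 1) :
    IsLagWeights K (supp y) (mergedMass y m) (wtsM K (discMeas y m)) := by
  classical
  have hex : ∃ w : E d → ℝ,
      IsLagWeights K (suppM (discMeas y m)) (massM (discMeas y m)) w := by
    rw [suppM_discMeas y m hm, massM_discMeas y m hm]
    exact exists_lagWeights hK (supp y) (supp_nonempty_of_sum y m hsum) (mergedMass y m)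
      (fun c hc => mergedMass_pos y m hm hc) (by rw [sum_mergedMass, hsum])
  have hdef : wtsM K (discMeas y m) = Classical.choose hex := by
    unfold wtsM
    rw [dif_pos hex]
  have hspec : IsLagWeights K (suppM (discMeas y m)) (massM (discMeas y m))
      (wtsM K (discMeas y m)) := by
    rw [hdef]; exact Classical.choose_spec hex
  rw [suppM_discMeas y m hm, massM_discMeas y m hm] at hspec
  exact hspec

theorem lagM_spec (hK : Body K) (hm : ∀ i, 0 < m i) (hsum : ∑ i, m i = 1) :
    IsLagMap K (supp y) (wtsM K (discMeas y m)) (lagM K (discMeas y m)) := by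
  classical
  have hex : ∃ L : E d → E d,
      IsLagMap K (suppM (discMeas y m)) (wtsM K (discMeas y m)) L := by
    rw [suppM_discMeas y m hm]
    exact exists_lagMap hK (supp y) (supp_nonempty_of_sum y m hsum) (wtsM K (discMeas y m))
  have hdef : lagM K (discMeas y m) = Classical.choose hex := by
    unfold lagM
    rw [dif_pos hex]
  have hspec : IsLagMap K (suppM (discMeas y m)) (wtsM K (discMeas y m))
      (lagM K (discMeas y m)) := by
    rw [hdef]; exact Classical.choose_spec hex
  rw [suppM_discMeas y m hm] at hspec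
  exact hspec

theorem potRaw_eq (hm : ∀ i, 0 < m i) :
    potRaw K (discMeas y m) = lagPot (supp y) (wtsM K (discMeas y m)) := by
  unfold potRaw
  rw [suppM_discMeas y m hm]

end Labelled

/-! ### Integrability on the body -/

theorem body_volume_ne_zero {K : Set (E d)} (hK : Body K) : (volume K) ≠ 0 := by
  have h1 : 0 < (volume : Measure (E d)) (interior K) := isOpen_interior.measure_pos volume hK.inter
  exact (lt_of_lt_of_le h1 (measure_mono interior_subset)).ne'

theorem integrable_of_continuous {K : Set (E d)} (hK : Body K) {f : E d → ℝ}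
    (hf : Continuous f) : Integrable f (uniformProbOn K) := by
  have h1 : IntegrableOn f K (volume : Measure (E d)) :=
    hf.continuousOn.integrableOn_compact hK.compact
  unfold uniformProbOn
  exact Integrable.smul_measure h1 (by simp [body_volume_ne_zero hK])

/-- Subtracting the mean minimises the mean square. -/
theorem integral_sq_sub_mean_le {α : Type} [MeasurableSpace α] (ρ : Measure α)
    [IsProbabilityMeasure ρ] (u : α → ℝ) (hu : Integrable u ρ)
    (hu2 : Integrable (fun x => u x ^ 2) ρ) (κ : ℝ) :
    ∫ x, (u x - ∫ y, u y ∂ρ) ^ 2 ∂ρ ≤ ∫ x, (u x - κ) ^ 2 ∂ρ := by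
  set ub : ℝ := ∫ y, u y ∂ρ with hub
  have e1 : ∀ t : ℝ, ∫ x, (u x - t) ^ 2 ∂ρ = ∫ x, u x ^ 2 ∂ρ - 2 * t * ub + t ^ 2 := by
    intro t
    have h1 : (fun x => (u x - t) ^ 2) = fun x => u x ^ 2 - 2 * t * u x + t ^ 2 := by
      funext x; ring
    rw [h1]
    have i1 : Integrable (fun x => 2 * t * u x) ρ := hu.const_mul _
    have i2 : Integrable (fun _ : α => t ^ 2) ρ := integrable_const _
    have h2 : ∫ x, (u x ^ 2 - 2 * t * u x + t ^ 2) ∂ρ
        = ∫ x, (u x ^ 2 - 2 * t * u x) ∂ρ + ∫ _x, t ^ 2 ∂ρ := integral_add (hu2.sub i1) i2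
    have h3 : ∫ x, (u x ^ 2 - 2 * t * u x) ∂ρ = ∫ x, u x ^ 2 ∂ρ - ∫ x, 2 * t * u x ∂ρ :=
      integral_sub hu2 i1
    rw [h2, h3, integral_const_mul, integral_const]
    simp [hub]
  rw [e1 ub, e1 κ]
  nlinarith [sq_nonneg (ub - κ)]

/-! ### The discrete theory -/

/-- The discrete theory, with the stability of the potentials of labelled configurations
(`discrete_potential_stability`, constant `C` for this `K`) as a hypothesis. -/
theorem discrete_theory_of {K : Set (E d)} (hK : Body K) (C : ℝ) (hC : 0 ≤ C)
    (hDPS : ∀ (ι : Type) [Fintype ι] (y z : ι → E d) (m : ι → ℝ), (∀ i, 0 < m i) →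
      ∑ i, m i = 1 → ∀ wy wz : E d → ℝ, IsLagWeights K (supp y) (mergedMass y m) wy →
      IsLagWeights K (supp z) (mergedMass z m) wz →
      ∃ κ : ℝ, ∫ x, (lagPot (supp y) wy x - lagPot (supp z) wz x - κ) ^ 2 ∂(uniformProbOn K)
        ≤ C * ∑ i, m i * ‖y i - z i‖ ^ 2)
    (M : ℝ) (hM : 0 ≤ M) :
    ∃ (C1 : ℝ) (pot : Measure (E d) → E d → ℝ) (lag : Measure (E d) → E d → E d), 0 ≤ C1 ∧
      (∀ (ι : Type) [Fintype ι] (w : ι → ℝ) (y : ι → E d), (∀ i, 0 < w i) → ∑ i, w i = 1 →
        (∀ i, ‖y i‖ ≤ M) →
          Measurable (lag (discMeas y w)) ∧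
          (uniformProbOn K).map (lag (discMeas y w)) = discMeas y w ∧
          (∀ x ∈ K, ‖lag (discMeas y w) x‖ ≤ M) ∧
          (∀ x ∈ K, ∀ z ∈ K,
            pot (discMeas y w) x + ⟪lag (discMeas y w) x, z - x⟫ ≤ pot (discMeas y w) z) ∧
          ∫ x, pot (discMeas y w) x ∂(uniformProbOn K) = 0) ∧
      (∀ (ι : Type) [Fintype ι] (w : ι → ℝ) (y z : ι → E d), (∀ i, 0 < w i) → ∑ i, w i = 1 →
        (∀ i, ‖y i‖ ≤ M) → (∀ i, ‖z i‖ ≤ M) →
          ∫ x, (pot (discMeas y w) x - pot (discMeas z w) x) ^ 2 ∂(uniformProbOn K)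
            ≤ C1 * ∑ i, w i * ‖y i - z i‖ ^ 2) := by
  classical
  have : IsProbabilityMeasure (uniformProbOn K) := rho_prob hK
  -- continuity of the raw potential of a labelled configuration
  have hcont : ∀ (ι : Type) [Fintype ι] (w : ι → ℝ) (y : ι → E d), (∀ i, 0 < w i) →
      (∀ i, ‖y i‖ ≤ M) → Continuous (potRaw K (discMeas y w)) := by
    intro ι _ w y hw hy
    rw [potRaw_eq y w hw]
    have hS : ∀ c ∈ supp y, ‖c‖ ≤ (⟨M, hM⟩ : ℝ≥0) := by
      intro c hc
      unfold supp at hc
      obtain ⟨i, _, rfl⟩ := Finset.mem_image.mp hc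
      exact hy i
    exact (lipschitz_lagPot (wtsM K (discMeas y w)) hS).continuous
  refine ⟨C, potM K, lagM K, hC, ?_, ?_⟩
  · intro ι _ w y hw hsum hy
    have hW := wtsM_spec (K := K) y w hK hw hsum
    obtain ⟨hLm, hLS, hLarg, hLc⟩ := lagM_spec (K := K) y w hK hw hsum
    refine ⟨hLm, lagMap_push hK y w hw hsum _ hW _ hLm hLS hLc, ?_, ?_, ?_⟩
    · intro x _
      have := hLS x
      unfold supp at this
      obtain ⟨i, _, hi⟩ := Finset.mem_image.mp this
      rw [← hi]; exact hy i
    · intro x _ z _
      have hx : potRaw K (discMeas y w) x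
          = ⟪x, lagM K (discMeas y w) x⟫ - wtsM K (discMeas y w) (lagM K (discMeas y w) x) := by
        rw [potRaw_eq y w hw]
        apply le_antisymm
        · unfold lagPot
          rw [dif_pos (supp_nonempty_of_sum y w hsum)]
          exact Finset.sup'_le _ _ (fun c hc => hLarg x c hc)
        · exact le_lagPot _ (hLS x) x
      have hz : ⟪z, lagM K (discMeas y w) x⟫ - wtsM K (discMeas y w) (lagM K (discMeas y w) x)
          ≤ potRaw K (discMeas y w) z := by
        rw [potRaw_eq y w hw]
        exact le_lagPot _ (hLS x) z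
      have hinner : ⟪lagM K (discMeas y w) x, z - x⟫
          = ⟪z, lagM K (discMeas y w) x⟫ - ⟪x, lagM K (discMeas y w) x⟫ := by
        rw [inner_sub_right, real_inner_comm z, real_inner_comm x]
      unfold potM
      rw [hinner]
      linarith
    · unfold potM
      have hint := integrable_of_continuous hK (hcont ι w y hw hy)
      rw [integral_sub hint (integrable_const _), integral_const]
      simp
  · intro ι _ w y z hw hsum hy hz
    have hWy := wtsM_spec (K := K) y w hK hw hsum
    have hWz := wtsM_spec (K := K) z w hK hw hsum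
    obtain ⟨κ, hκ⟩ := hDPS ι y z w hw hsum _ _ hWy hWz
    rw [← potRaw_eq y w hw, ← potRaw_eq z w hw] at hκ
    set u : E d → ℝ := fun x => potRaw K (discMeas y w) x - potRaw K (discMeas z w) x with hu
    have hcu : Continuous u := (hcont ι w y hw hy).sub (hcont ι w z hw hz)
    have hiu : Integrable u (uniformProbOn K) := integrable_of_continuous hK hcu
    have hiu2 : Integrable (fun x => u x ^ 2) (uniformProbOn K) :=
      integrable_of_continuous hK (hcu.pow 2)
    have hmean : ∫ x, u x ∂(uniformProbOn K)
        = ∫ x, potRaw K (discMeas y w) x ∂(uniformProbOn K)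
          - ∫ x, potRaw K (discMeas z w) x ∂(uniformProbOn K) := by
      rw [hu]
      exact integral_sub (integrable_of_continuous hK (hcont ι w y hw hy))
        (integrable_of_continuous hK (hcont ι w z hw hz))
    have hrew : (fun x => (potM K (discMeas y w) x - potM K (discMeas z w) x) ^ 2)
        = fun x => (u x - ∫ x', u x' ∂(uniformProbOn K)) ^ 2 := by
      funext x
      rw [hmean]
      simp only [potM, hu]
      ring
    rw [hrew]
    calc ∫ x, (u x - ∫ x', u x' ∂(uniformProbOn K)) ^ 2 ∂(uniformProbOn K)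
        ≤ ∫ x, (u x - κ) ^ 2 ∂(uniformProbOn K) :=
          integral_sq_sub_mean_le (uniformProbOn K) u hiu hiu2 κ
      _ ≤ C * ∑ i, w i * ‖y i - z i‖ ^ 2 := hκ

end Crest.Agent.Helper79.OT
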