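import Crest.Agent.Helper79.OT.DiscreteTheory
import Crest.Agent.Helper40.OT.SW
import Crest.Agent.Helper43.OT.WeightsStabilityOf
import Crest.Agent.Helper12.OT.MomentStability

/-!
# Row 82 (S0109), package DT: `discrete_theory` (the Spec statement), FINAL (no `sorry`, no `Spec`
import anywhere in the closure).

The stability of the potentials of labelled configurations (B) is assembled inline from the landed
pieces, so that no Spec-named intermediate constant is (re)declared here:

* (S)  `moment_stability` (Helper12/OT/MomentStability, constant `300`),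
* (M)  `weights_stability_of` (Helper43/OT/WeightsStabilityOf, `300 ⟹ 1100`),
* (SW) `discrete_potential_stability_of` (Helper40/OT/SW, `1100 ⟹ 5000`),
* (DT) `Crest.Agent.Helper79.OT.discrete_theory_of` (Helper79/OT/DiscreteTheory).
-/

set_option autoImplicit false

noncomputable section

open MeasureTheory
open scoped ENNReal NNReal RealInnerProductSpace

namespace Crest.Agent.Helper75.OT

open Crest.AnalysisR.OT

variable {d : ℕ}

theorem discrete_theory {K : Set (E d)} (hK : Body K) (M : ℝ) (hM : 0 ≤ M) :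
    ∃ (C1 : ℝ) (pot : Measure (E d) → E d → ℝ) (lag : Measure (E d) → E d → E d), 0 ≤ C1 ∧
      (∀ (ι : Type) [Fintype ι] (w : ι → ℝ) (y : ι → E d), (∀ i, 0 < w i) → ∑ i, w i = 1 →
        (∀ i, ‖y i‖ ≤ M) →
          Measurable (lag (discMeas y w)) ∧
          (uniformProbOn K).map (lag (discMeas y w)) = discMeas y w ∧
          (∀ x ∈ K, ‖lag (discMeas y w) x‖ ≤ M) ∧
          (∀ x ∈ K, ∀ z ∈ K,
            pot (discMeas y w) x + ⟪lag (discMeas y w) x, z - x⟫ ≤ pot (discMeas y w) z) ∧
          ∫ x, pot (discMeas y w) x ∂(uniformProbOn K) = 0) ∧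
      (∀ (ι : Type) [Fintype ι] (w : ι → ℝ) (y z : ι → E d), (∀ i, 0 < w i) → ∑ i, w i = 1 →
        (∀ i, ‖y i‖ ≤ M) → (∀ i, ‖z i‖ ≤ M) →
          ∫ x, (pot (discMeas y w) x - pot (discMeas z w) x) ^ 2 ∂(uniformProbOn K)
            ≤ C1 * ∑ i, w i * ‖y i - z i‖ ^ 2) := by
  obtain ⟨R, hR⟩ : ∃ R : ℝ, ∀ x ∈ K, ‖x‖ ≤ R := by
    obtain ⟨R, hR⟩ := hK.compact.isBounded.exists_norm_le
    exact ⟨R, hR⟩
  exact Crest.Agent.Helper79.OT.discrete_theory_of hK (5000 * R ^ 2) (by positivity)
    (fun ι _ y z m hm hsum wy wz hwy hwz =>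
      discrete_potential_stability_of hK hR y z m hm hsum wy wz hwy hwz
        (weights_stability_of hK hR (fun S w0 w1 => moment_stability hK hR S w0 w1)
          y z m hm hsum wy wz hwy hwz)) M hM

end Crest.Agent.Helper75.OT
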